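import Vale.Agent.P216.H337T.HCap

/-!
# P216-T, row T1: the classes of odd degree of the free loops are not zero

* `HCap.ofCub`: the half cap of a box of a coordinate cube;
* `HCap.htriv`, `exists_htriv`: the trivialisation of the free loops over the box;
* `oF T om`: the global class of degree `q + n` of the free loops = image of
  `H^q(Om) ~ H^(q+n)(X, X|Dm) → H^(q+n)(X)`;
* `oF_ne`: it is not zero if the classes of degree `q + n - 1` over `Dm` come, up to a shift, from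
  global classes (Leray over `Dm`).
-/

set_option linter.all false

namespace Vale.Agent.P216.H337T

open Set Filter Topology BoundedContinuousFunction
open Vale.Agent.P216.PS
open Vale.Agent.P216.MV337
open Vale.Agent.P216.AS
open Vale.Agent.P216.H901
open Vale.Agent.P216.H83 (ovr_sub ovr_mono ovr_inter ovr_union ovr_compact lesA lesB lesD lesA_nat
  lesB_nat lesD_nat les_ex1 les_ex2 les_ex3 absE absE_nat absE_symm_nat)
open Vale.Agent.P216.H754B (XP GP mono_FL mono_P exists_OQ OQ)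
open Vale.Agent.P216.B64 (OmegaOut HU)

/-! ### The half cap of a box -/

section Cub

variable {M : Type} [MetricSpace M] {n : ℕ} (c : Ch2.D246.Cub M n) {v : Fin n → ℝ} {δ : ℝ} {x₀ : M}

/-- the closed box -/
def box (c : Ch2.D246.Cub M n) (v : Fin n → ℝ) (δ : ℝ) : Set M := {a | a ∈ c.D ∧ ‖c.φ a - v‖ ≤ δ}

theorem isClosed_box : IsClosed (box c v δ) := by
  have h : ContinuousOn (fun a => ‖c.φ a - v‖) c.D := (c.φ_cont.sub continuousOn_const).norm
  exact h.preimage_isClosed_of_isClosed c.closed (isClosed_Iic (a := δ))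

theorem A1_eq (hv : ‖v‖ + δ ≤ 2) : c.A1 v δ =
    {x | x ∈ c.D ∧ ‖c.φ x‖ < 2}ᶜ ∪ (c.D ∩ (fun a => ‖c.φ a - v‖) ⁻¹' Ici δ) := by
  ext a
  constructor
  · intro h2
    by_cases h : a ∈ c.D ∧ ‖c.φ a‖ < 2
    · exact Or.inr ⟨h.1, h2 h.1⟩
    · exact Or.inl h
  · rintro (h1 | ⟨h1, h3⟩)
    · intro hD
      have h4 : 2 ≤ ‖c.φ a‖ := by
        by_contra hcon
        exact h1 ⟨hD, not_le.1 hcon⟩
      have h5 := norm_sub_norm_le (c.φ a) v
      linarith
    · exact fun _ => h3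

theorem isClosed_A1 (hv : ‖v‖ + δ ≤ 2) : IsClosed (c.A1 v δ) := by
  rw [A1_eq c hv]
  have h : ContinuousOn (fun a => ‖c.φ a - v‖) c.D := (c.φ_cont.sub continuousOn_const).norm
  exact c.open_int.isClosed_compl.union
    (h.preimage_isClosed_of_isClosed c.closed (isClosed_Ici (a := δ)))

theorem box_union : box c v δ ∪ c.A1 v δ = univ := by
  refine eq_univ_of_forall fun a => ?_
  by_cases h : a ∈ c.D ∧ ‖c.φ a - v‖ ≤ δ
  · exact Or.inl h
  · refine Or.inr fun hD => ?_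
    by_contra hcon
    exact h ⟨hD, (not_le.1 hcon).le⟩

/-- the cube coordinates on the box -/
noncomputable def bφ (v : Fin n → ℝ) (δ : ℝ) (a : M) : Fin n → ℝ :=
  fun i => ((c.φ a i - v i) / δ + 1) / 2

/-- the inverse -/
def bψ (v : Fin n → ℝ) (δ : ℝ) (y : Fin n → ℝ) : M := c.ψ (fun i => v i + δ * (2 * y i - 1))

theorem bφ_cont : ContinuousOn (bφ c v δ) (box c v δ) := by
  refine continuousOn_pi.2 fun i => ?_
  have h : ContinuousOn (fun a => c.φ a i) (box c v δ) :=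
    (continuous_apply i).comp_continuousOn (c.φ_cont.mono fun a ha => ha.1)
  exact (((h.sub continuousOn_const).div_const _).add continuousOn_const).div_const _

theorem bφ_abs (hδ : 0 < δ) {a : M} (ha : a ∈ box c v δ) (i : Fin n) :
    |(c.φ a i - v i) / δ| ≤ 1 := by
  have h1 : |c.φ a i - v i| ≤ δ := (norm_le_pi_norm (c.φ a - v) i).trans ha.2
  rw [abs_div, abs_of_pos hδ]
  exact (div_le_one hδ).2 h1

theorem bφ_mem (hδ : 0 < δ) {a : M} (ha : a ∈ box c v δ) (i : Fin n) :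
    bφ c v δ a i ∈ Icc (0:ℝ) 1 := by
  have h2 := abs_le.1 (bφ_abs c hδ ha i)
  change ((c.φ a i - v i) / δ + 1) / 2 ∈ Icc (0:ℝ) 1
  constructor <;> linarith [h2.1, h2.2]

theorem bψ_cont (hδ : 0 < δ) (hv : ‖v‖ + δ ≤ 2) :
    ContinuousOn (bψ c v δ) {y | ∀ i, y i ∈ Icc (0:ℝ) 1} := by
  refine c.ψ_cont.comp (continuousOn_pi.2 fun i => ?_) fun y hy =>
    Ch2.D246.Cub.nrm_le2 hδ.le hv hy
  fun_prop

theorem bφ_bψ (hδ : 0 < δ) (hv : ‖v‖ + δ ≤ 2) {y : Fin n → ℝ} (hy : ∀ i, y i ∈ Icc (0:ℝ) 1) :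
    bφ c v δ (bψ c v δ y) = y := by
  have h1 := Ch2.D246.Cub.nrm_le2 hδ.le hv hy
  funext i
  change ((c.φ (c.ψ _) i - v i) / δ + 1) / 2 = y i
  rw [c.φψ _ h1]
  change ((v i + δ * (2 * y i - 1) - v i) / δ + 1) / 2 = y i
  field_simp
  ring

theorem bψ_mem (hδ : 0 < δ) (hv : ‖v‖ + δ ≤ 2) {y : Fin n → ℝ} (hy : ∀ i, y i ∈ Icc (0:ℝ) 1) :
    bψ c v δ y ∈ box c v δ := by
  have h1 := Ch2.D246.Cub.nrm_le2 hδ.le hv hy
  refine ⟨c.ψ_mem _ h1, ?_⟩
  change ‖c.φ (c.ψ _) - v‖ ≤ δ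
  rw [c.φψ _ h1]
  exact Ch2.D246.Cub.nrm_le hδ.le hy

theorem bψ_bφ (hδ : 0 < δ) {a : M} (ha : a ∈ box c v δ) : bψ c v δ (bφ c v δ a) = a := by
  change c.ψ (fun i => v i + δ * (2 * (((c.φ a i - v i) / δ + 1) / 2) - 1)) = a
  have : (fun i => v i + δ * (2 * (((c.φ a i - v i) / δ + 1) / 2) - 1)) = c.φ a := by
    funext i
    field_simp
    ring
  rw [this]
  exact c.ψφ a ha.1

theorem b_bdry (hδ : 0 < δ) (hv : ‖v‖ + δ ≤ 2) {a : M} (ha : a ∈ box c v δ) :
    a ∈ c.A1 v δ ↔ ∃ i, bφ c v δ a i = 0 ∨ bφ c v δ a i = 1 := by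
  constructor
  · intro h1
    by_contra hcon
    push Not at hcon
    have h5 : ‖c.φ a - v‖ < δ := by
      refine (pi_norm_lt_iff hδ).2 fun i => ?_
      obtain ⟨h6, h7⟩ := hcon i
      change ((c.φ a i - v i) / δ + 1) / 2 ≠ 0 at h6
      change ((c.φ a i - v i) / δ + 1) / 2 ≠ 1 at h7
      have h8 := abs_le.1 (bφ_abs c hδ ha i)
      have h9 : |(c.φ a i - v i) / δ| < 1 := by
        rw [abs_lt]
        constructor
        · refine lt_of_le_of_ne h8.1 fun h => h6 ?_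
          rw [← h]; norm_num
        · refine lt_of_le_of_ne h8.2 fun h => h7 ?_
          rw [h]; norm_num
      rw [abs_div, abs_of_pos hδ, div_lt_one hδ] at h9
      exact h9
    exact absurd (h1 ha.1) (not_le.2 h5)
  · rintro ⟨i, hi⟩ _
    have h := norm_le_pi_norm (c.φ a - v) i
    refine le_trans ?_ h
    rw [Pi.sub_apply, Real.norm_eq_abs]
    have h3 : |(c.φ a i - v i) / δ| = 1 := by
      rcases hi with hi | hi
      · have : (c.φ a i - v i) / δ = -1 := by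
          change ((c.φ a i - v i) / δ + 1) / 2 = 0 at hi
          linarith
        rw [this]; norm_num
      · have : (c.φ a i - v i) / δ = 1 := by
          change ((c.φ a i - v i) / δ + 1) / 2 = 1 at hi
          linarith
        rw [this]; norm_num
    rw [abs_div, abs_of_pos hδ, div_eq_one_iff_eq hδ.ne'] at h3
    exact h3.ge

/-- contraction of the box to its centre, then the path -/
noncomputable def bH (v : Fin n → ℝ) (γ : ℝ → M) (p : M × ℝ) : M :=
  cc (fun q : ℝ × M => c.ψ (fun i => v i + (1 - q.1) * (c.φ q.2 i - v i))) (fun q => γ q.1)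
    (p.2, p.1)

theorem bH_aux {u : Fin n → ℝ} {s : ℝ} (hs : s ∈ Icc (0:ℝ) 1) (hu : ‖u - v‖ ≤ δ)
    (hv : ‖v‖ + δ ≤ 2) : ‖(fun i => v i + (1 - s) * (u i - v i))‖ ≤ 2 := by
  have e : (fun i => v i + (1 - s) * (u i - v i)) = v + (1 - s) • (u - v) := by
    funext i
    simp
  rw [e]
  refine (norm_add_le _ _).trans ?_
  rw [norm_smul, Real.norm_eq_abs, abs_of_nonneg (by linarith [hs.2])]
  have h1 : (1 - s) * ‖u - v‖ ≤ 1 * ‖u - v‖ :=
    mul_le_mul_of_nonneg_right (by linarith [hs.1]) (norm_nonneg _)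
  linarith

/-- **The half cap of a box.** -/
noncomputable def _root_.Vale.Agent.P216.H337T.HCap.ofCub (hδ : 0 < δ) (hv : ‖v‖ + δ ≤ 2)
    (γ : Path (c.ψ v) x₀) : HCap n M x₀ where
  Dp := box c v δ
  Dm := c.A1 v δ
  closed_p := isClosed_box c
  closed_m := isClosed_A1 c hv
  union := box_union c
  φ := bφ c v δ
  ψ := bψ c v δ
  φ_cont := bφ_cont c
  φ_mem x hx := bφ_mem c hδ hx
  ψ_cont := bψ_cont c hδ hv
  ψ_mem y hy := bψ_mem c hδ hv hy
  φψ y hy := bφ_bψ c hδ hv hy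
  ψφ x hx := bψ_bφ c hδ hx
  bdry x hx := b_bdry c hδ hv hx
  Hp := bH c v γ.extend
  Hp_cont := by
    have h := cc_cont (A := box c v δ)
      (F := fun q : ℝ × M => c.ψ (fun i => v i + (1 - q.1) * (c.φ q.2 i - v i)))
      (G := fun q : ℝ × M => γ.extend q.1) ?_ ?_ ?_
    · exact h.comp (f := fun p : M × ℝ => (p.2, p.1)) (by fun_prop) fun p hp => ⟨hp.2, hp.1⟩
    · refine c.ψ_cont.comp (continuousOn_pi.2 fun i => ?_) fun q hq =>
        bH_aux hq.1 hq.2.2 hv
      have h1 : ContinuousOn (fun q : ℝ × M => c.φ q.2 i) (Icc (0:ℝ) 1 ×ˢ box c v δ) :=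
        (continuous_apply i).comp_continuousOn (c.φ_cont.comp continuousOn_snd fun q hq => hq.2.1)
      have h2 : ContinuousOn (fun q : ℝ × M => 1 - q.1) (Icc (0:ℝ) 1 ×ˢ box c v δ) := by fun_prop
      exact continuousOn_const.add (h2.mul (h1.sub continuousOn_const))
    · exact (γ.continuous_extend.comp continuous_fst).continuousOn
    · intro x hx
      change c.ψ (fun i => v i + (1 - 1) * (c.φ x i - v i)) = γ.extend 0
      rw [Path.extend_zero]
      congr 1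
      funext i
      ring
  Hp_zero x hx := by
    change cc _ _ (0, x) = x
    rw [cc_zero]
    change c.ψ (fun i => v i + (1 - 0) * (c.φ x i - v i)) = x
    have e : (fun i => v i + (1 - 0) * (c.φ x i - v i)) = c.φ x := by
      funext i
      ring
    rw [e]
    exact c.ψφ x hx.1
  Hp_one x hx := by
    change cc _ _ (1, x) = x₀
    rw [cc_one]
    exact Path.extend_one γ

@[simp] theorem ofCub_Dp (hδ : 0 < δ) (hv : ‖v‖ + δ ≤ 2) (γ : Path (c.ψ v) x₀) :
    (HCap.ofCub c hδ hv γ).Dp = box c v δ := rfl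

@[simp] theorem ofCub_Dm (hδ : 0 < δ) (hv : ‖v‖ + δ ≤ 2) (γ : Path (c.ψ v) x₀) :
    (HCap.ofCub c hδ hv γ).Dm = c.A1 v δ := rfl

end Cub

/-! ### The trivialisation over the box -/

section Triv

variable {M : Type} [MetricSpace M] [CompactSpace M] {x₀ : M} {ℓ : ℝ} {T : M → ℝ → M} {n : ℕ}

/-- The trivialisation of the free loops over `Dp`, from given tracks. -/
noncomputable def HCap.htriv (C : HCap n M x₀) (hp : Tr C.Dp x₀ ℓ T) :
    HTriv n (evz (M := M)) (fun t => FL M t) (fun t => P x₀ x₀ t) (2 * ℓ) where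
  c0 := by linarith [hp.nonneg]
  Dp := C.Dp
  Dm := C.Dm
  closed_p := C.closed_p
  closed_m := C.closed_m
  union := C.union
  ev_cont := by unfold evz; fun_prop
  X_comp t ht := isCompact_FL ht.le
  X_mono s t _ h := FL_mono h
  Om_comp t _ := isCompact_P _ _ _
  Om_mono s t _ h := P_mono h
  tp := spP C hp

theorem exists_htriv (C : HCap n M x₀) {ρ : ℝ} (hρ : 0 < ρ) (hU : LS.UniqSeg M ρ) :
    ∃ c, ∃ T : HTriv n (evz (M := M)) (fun t => FL M t) (fun t => P x₀ x₀ t) c,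
      T.Dp = C.Dp ∧ T.Dm = C.Dm := by
  obtain ⟨ℓ, Tp, hp⟩ := exists_tracks hρ hU C.closed_p.isCompact C.Hp_cont C.Hp_zero C.Hp_one
  exact ⟨2 * ℓ, C.htriv hp, rfl, rfl⟩

end Triv

/-! ### The classes of odd degree -/

section Odd

variable {k : Type} [Field k] {E E' M : Type} [MetricSpace E] [MetricSpace E'] [MetricSpace M]
  {ev : E → M} {X : ℝ → Set E} {Om : ℝ → Set E'} {c : ℝ} {m : ℕ} (T : HTriv (m + 1) ev X Om c)

/-- `H^q(X, X|Dm) → H^q(X)` -/
noncomputable def aF (k : Type) [Field k] (q : ℕ) (t : ℝ) (ht : 0 < t) :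
    (PMr k X (ovr ev X T.Dm) T.X_mono (mono_ovr T.X_mono _) q).V t →ₗ[k]
      (PMa k X T.X_mono q).V t :=
  (absE k (X t) q).symm.toLinearMap ∘ₗ lesA k (X t) (ovr ev X T.Dm t) q

theorem aF_nat (q : ℕ) (s t : ℝ) (hs : 0 < s) (ht : 0 < t) (h : s ≤ t)
    (x : (PMr k X (ovr ev X T.Dm) T.X_mono (mono_ovr T.X_mono _) q).V t) :
    (PMa k X T.X_mono q).ρ s t hs h (aF T k q t ht x) =
      aF T k q s hs ((PMr k X (ovr ev X T.Dm) T.X_mono (mono_ovr T.X_mono _) q).ρ s t hs h x) := by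
  have h1 := absE_symm_nat (k := k) (T.X_mono s t hs h) q (lesA k (X t) (ovr ev X T.Dm t) q x)
  have h2 := lesA_nat k (T.X_mono s t hs h) (mono_ovr T.X_mono T.Dm s t hs h) q x
  rw [h2] at h1
  exact h1

/-- The relative family of a family of the fibre. -/
noncomputable def kF {q : ℕ} (om : (PMa k Om T.Om_mono q).Fam) :
    (PMr k X (ovr ev X T.Dm) T.X_mono (mono_ovr T.X_mono _) (q + (m + 1))).Fam :=
  (iP T k q).symm.fFam T.c0 om

/-- **The global class of degree `q + n` of a family of degree `q` of the fibre.** -/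
noncomputable def oF {q : ℕ} (om : (PMa k Om T.Om_mono q).Fam) :
    (PMa k X T.X_mono (q + (m + 1))).Fam :=
  (kF T om).map (fun t ht => aF T k _ t ht) fun s t hs ht h x => aF_nat T _ s t hs ht h x

/-- `oF` dies where `om` died. -/
theorem om_ne_of_oF {q : ℕ} (om : (PMa k Om T.Om_mono q).Fam) {s t : ℝ} (hs : 0 < s) (ht : 0 < t)
    (h : s + c ≤ t) (hne : (oF T om).z s hs ≠ 0) : om.z t ht ≠ 0 := by
  intro h0
  apply hne
  have e : (kF T om).z s hs = 0 := by
    have h1 := (iP T k q).symm.f_fam T.c0 om hs ht h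
    rw [h0, map_zero] at h1
    exact h1.symm
  change aF T k _ s hs ((kF T om).z s hs) = 0
  rw [e, map_zero]

/-- **`oF om` is not zero**: `Dm` sees in degree `q + m` only restrictions of global classes. -/
theorem oF_ne {q : ℕ} (om : (PMa k Om T.Om_mono q).Fam) {s t t' : ℝ} (hs : 0 < s) (ht : 0 < t)
    (ht' : 0 < t') (h : s + c ≤ t) (h' : t ≤ t')
    (L : ∀ u : Ha (tr E) (on k) (ovr ev X T.Dm t') (q + m), ∃ g : Ha (tr E) (on k) (X t) (q + m),
      res (mono_ovr T.X_mono T.Dm t t' ht h') (q + m) u = res (ovr_sub ev X T.Dm t) (q + m) g)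
    (hne : om.z s hs ≠ 0) : (oF T om).z t' ht' ≠ 0 := by
  intro h0
  apply hne
  have h1 : lesA k (X t') (ovr ev X T.Dm t') (q + m + 1) ((kF T om).z t' ht') = 0 :=
    (LinearEquiv.map_eq_zero_iff (absE k (X t') (q + m + 1)).symm).1 h0
  obtain ⟨u', hu⟩ := (les_ex3 k (ovr_sub ev X T.Dm t') (q + m) _).1 h1
  obtain ⟨u, rfl⟩ := (absE k (ovr ev X T.Dm t') (q + m)).surjective u'
  obtain ⟨g, hg⟩ := L u
  have e1 : (kF T om).z t ht = 0 := by
    refine ((kF T om).comp t t' ht h').symm.trans ?_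
    have e0 : (kF T om).z t' (ht.trans_le h') = lesD k (X t') (ovr ev X T.Dm t') (q + m)
      (absE k (ovr ev X T.Dm t') (q + m) u) := hu.symm
    rw [e0]
    have e2 := lesD_nat k (T.X_mono t t' ht h') (mono_ovr T.X_mono T.Dm t t' ht h') (q + m)
      (absE k (ovr ev X T.Dm t') (q + m) u)
    refine e2.trans ?_
    rw [absE_nat, hg]
    have e3 : absE k (ovr ev X T.Dm t) (q + m) (res (ovr_sub ev X T.Dm t) (q + m) g) =
        lesB k (ovr_sub ev X T.Dm t) (q + m) (absE k (X t) (q + m) g) :=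
      (absE_nat k (ovr_sub ev X T.Dm t) (q + m) g).symm
    rw [e3]
    exact (les_ex2 k (ovr_sub ev X T.Dm t) (q + m) _).2 ⟨_, rfl⟩
  have e4 := (iP T k q).f_f_fam T.c0 om hs ht h
  rw [← e4]
  change (iP T k q).f s t hs h ((kF T om).z t ht) = 0
  rw [e1, map_zero]

end Odd

/-! ### The free loops -/

section Free

variable {M : Type} [MetricSpace M] {x₀ : M} {c B : ℝ} {k : Type} [Field k] {m : ℕ}

/-- The classes `om j` are born before `j * B`. -/
theorem om_ne_of_le (hB : 0 ≤ B) (O : OmegaOut M m x₀ B k) (j : ℕ) :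
    ∀ t, j * B ≤ t → O.om j t ≠ 0 := by
  induction j with
  | zero =>
    intro t ht
    rw [Nat.cast_zero, zero_mul] at ht
    exact O.om_ne t ht
  | succ j ih =>
    intro t ht h
    rw [Nat.cast_add, Nat.cast_one, add_mul, one_mul] at ht
    have h0 : 0 ≤ (j : ℝ) * B := mul_nonneg (Nat.cast_nonneg _) hB
    have h1 := O.down j (t - B) (by linarith) (by rwa [sub_add_cancel])
    exact ih (t - B) (by linarith) h1

/-- **[P216-T, T1]** The classes of degree `2 j + 3` of the free loops of a `3`-manifold; only the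
levels `t ≥ t₁` are used. -/
theorem ne_odd' (T : HTriv 3 (evz (M := M)) (fun t => FL M t) (fun t => P x₀ x₀ t) c) (hB : 0 ≤ B)
    (O : OmegaOut M 2 x₀ B k) {j : ℕ} (g : (XP k M (2 * j + 2)).Fam) (t₁ : ℝ)
    (L : ∀ t (ht : 0 < t), t₁ ≤ t → ∃ T', ∃ h : t ≤ T',
      ∀ u : Ha (tr (ℝ →ᵇ M)) (on k) (ovr evz (fun t => FL M t) T.Dm T') (2 * j + 2), ∃ a : k,
        res (mono_ovr mono_FL T.Dm t T' ht h) (2 * j + 2) u =
          a • res (ovr_sub evz (fun t => FL M t) T.Dm t) (2 * j + 2) (g.z t ht)) :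
    ∃ o : (XP k M (2 * j + 3)).Fam, ∃ (t : ℝ) (ht : 0 < t), o.z t ht ≠ 0 := by
  obtain ⟨om, hom⟩ := exists_OQ hB O j (2 * j) (mul_comm 2 j)
  have hs0 : 0 < (j : ℝ) * B + 1 := by positivity
  have hs1 : (j : ℝ) * B + 1 ≤ max ((j : ℝ) * B + 1) t₁ := le_max_left _ _
  have hs : 0 < max ((j : ℝ) * B + 1) t₁ := hs0.trans_le hs1
  have hne : om.z (max ((j : ℝ) * B + 1) t₁) hs ≠ 0 := fun h =>
    om_ne_of_le hB O j _ (by linarith) ((hom.z_iff _ hs).1 h)
  have hc := T.c0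
  have ht : 0 < max ((j : ℝ) * B + 1) t₁ + c := by linarith
  obtain ⟨T', h, hL⟩ := L _ ht (by linarith [le_max_right ((j : ℝ) * B + 1) t₁])
  refine ⟨oF T om, T', ht.trans_le h, oF_ne T om hs ht (ht.trans_le h) le_rfl h (fun u => ?_) hne⟩
  obtain ⟨a, ha⟩ := hL u
  exact ⟨a • g.z _ ht, ha.trans (map_smul _ _ _).symm⟩

/-- **[P216-T, T1]** The classes of degree `2 j + 3` of the free loops of a `3`-manifold. -/
theorem ne_odd (T : HTriv 3 (evz (M := M)) (fun t => FL M t) (fun t => P x₀ x₀ t) c) (hB : 0 ≤ B)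
    (O : OmegaOut M 2 x₀ B k) {j : ℕ} (g : (XP k M (2 * j + 2)).Fam)
    (L : ∀ t (ht : 0 < t), ∃ T', ∃ h : t ≤ T',
      ∀ u : Ha (tr (ℝ →ᵇ M)) (on k) (ovr evz (fun t => FL M t) T.Dm T') (2 * j + 2), ∃ a : k,
        res (mono_ovr mono_FL T.Dm t T' ht h) (2 * j + 2) u =
          a • res (ovr_sub evz (fun t => FL M t) T.Dm t) (2 * j + 2) (g.z t ht)) :
    ∃ o : (XP k M (2 * j + 3)).Fam, ∃ (t : ℝ) (ht : 0 < t), o.z t ht ≠ 0 :=
  ne_odd' T hB O g 0 fun t ht _ => L t ht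

end Free

end Vale.Agent.P216.H337T
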