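import Vale.Agent.P216.MV337.Main
import Vale.Agent.P216.H799.W3
import Vale.Agent.P216.H754B.Fl
import Vale.Agent.P216.Ch2.D246.Chart

/-!
# P216-T, row T1: a half cap (a closed cube contractible in `M`, and its complement)

`HCap n M x₀`: `MV337.Caps` without any information on `Dm`; `spP`: the trivialisation of the free
loops over `Dp`; `HTriv` = `H901.Triv` without `tm`; `iP` = the Thom isomorphism with bounded shift;
`HCap.ofCub`: the half cap of a box in a coordinate cube.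
-/

set_option linter.all false

namespace Vale.Agent.P216.H337T

open Set Filter Topology BoundedContinuousFunction
open Vale.Agent.P216.PS
open Vale.Agent.P216.MV337
open Vale.Agent.P216.AS (IsMap IsHtpy)
open Vale.Agent.P216.H901 (Hp SpIntl Cu cub bdc ovr tr Triv)
open Vale.Agent.P216.MV337.Tr (htA htB)

/-- `MV337.Caps` without the fields on `Dm`. -/
structure HCap (n : ℕ) (M : Type) [TopologicalSpace M] (x₀ : M) where
  Dp : Set M
  Dm : Set M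
  closed_p : IsClosed Dp
  closed_m : IsClosed Dm
  union : Dp ∪ Dm = univ
  φ : M → Fin n → ℝ
  ψ : (Fin n → ℝ) → M
  φ_cont : ContinuousOn φ Dp
  φ_mem : ∀ x ∈ Dp, ∀ i, φ x i ∈ Icc (0:ℝ) 1
  ψ_cont : ContinuousOn ψ {y | ∀ i, y i ∈ Icc (0:ℝ) 1}
  ψ_mem : ∀ y, (∀ i, y i ∈ Icc (0:ℝ) 1) → ψ y ∈ Dp
  φψ : ∀ y, (∀ i, y i ∈ Icc (0:ℝ) 1) → φ (ψ y) = y
  ψφ : ∀ x ∈ Dp, ψ (φ x) = x
  /-- the boundary -/
  bdry : ∀ x ∈ Dp, x ∈ Dm ↔ ∃ i, φ x i = 0 ∨ φ x i = 1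
  /-- nullhomotopy -/
  Hp : M × ℝ → M
  Hp_cont : ContinuousOn Hp (Dp ×ˢ Icc (0:ℝ) 1)
  Hp_zero : ∀ x ∈ Dp, Hp (x, 0) = x
  Hp_one : ∀ x ∈ Dp, Hp (x, 1) = x₀

section sp

variable {M : Type} [MetricSpace M] [CompactSpace M] {x₀ : M} {ℓ : ℝ} {T : M → ℝ → M}

/-- **over `Dp`** -/
noncomputable def spP {n : ℕ} (C : HCap n M x₀) (h : Tr C.Dp x₀ ℓ T) :
    SpIntl (ovr evz (fun t => FL M t) C.Dp) (ovr evz (fun t => FL M t) (C.Dp ∩ C.Dm))
      (fun t => cub n (P x₀ x₀ t)) (fun t => bdc n (P x₀ x₀ t)) (2 * ℓ) where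
  f t w := enc n (cut T ℓ t w) (C.φ (w 0))
  g t z := back T ℓ t (C.ψ (dec2 n z), dec1 n z)
  f_map t ht := by
    refine map_of_cont (isCompact_ovr C.closed_p ht.le) ?_ fun w hw => ?_
    · exact enc_cont n (h.continuousOn_cut ht.le)
        (C.φ_cont.comp (continuousOn_eval continuousOn_id continuousOn_const) fun w hw => hw.2)
    · rw [mem_cub, dec1_enc, dec2_enc]
      exact ⟨h.cut_mem ht.le hw, C.φ_mem _ hw.2⟩
  f_sub t ht := by
    intro w hw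
    have hw' : w ∈ FLD C.Dp t := ⟨hw.1, hw.2.1⟩
    rw [mem_bdc, mem_cub, dec1_enc, dec2_enc]
    exact ⟨⟨h.cut_mem ht.le hw', C.φ_mem _ hw.2.1⟩, (C.bdry _ hw.2.1).1 hw.2.2⟩
  g_map t ht := by
    refine map_of_cont (isCompact_cub n (isCompact_P _ _ _)) ?_ fun z hz => ?_
    · refine h.continuousOn_back' (C := t) ?_ (dec1_cont n).continuousOn continuousOn_const
        (fun _ _ => ht.le) (fun _ _ => le_rfl) (fun z hz => C.ψ_mem _ ((mem_cub n).1 hz).2)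
        fun z hz => ((mem_cub n).1 hz).1
      exact C.ψ_cont.comp (dec2_cont n).continuousOn fun z hz => ((mem_cub n).1 hz).2
    · exact h.back_memD (p := (C.ψ (dec2 n z), dec1 n z)) ht.le (C.ψ_mem _ ((mem_cub n).1 hz).2)
        ((mem_cub n).1 hz).1
  g_sub t ht := by
    intro z hz
    obtain ⟨h1, h2⟩ := (mem_bdc n).1 hz
    obtain ⟨h3, h4⟩ := (mem_cub n).1 h1
    have h5 := C.ψ_mem _ h4
    have h6 := h.back_memD (p := (C.ψ (dec2 n z), dec1 n z)) ht.le h5 h3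
    refine ⟨h6.1, h6.2, ?_⟩
    show back T ℓ t (C.ψ (dec2 n z), dec1 n z) 0 ∈ C.Dm
    rw [h.back_zero (p := (C.ψ (dec2 n z), dec1 n z)) ht.le h5 h3, C.bdry _ h5, C.φψ _ h4]
    exact h2
  f_nat s t hs hst := by
    have hc : ContinuousOn (fun p : ℝ × (ℝ →ᵇ M) => enc n (cut T ℓ (s + p.1 * (t - s)) p.2)
        (C.φ (p.2 0))) (Icc (0:ℝ) 1 ×ˢ ovr evz (fun t => FL M t) C.Dp s) := by
      refine enc_cont n ?_ (C.φ_cont.comp (continuousOn_eval continuousOn_snd continuousOn_const)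
        fun p hp => hp.2.2)
      refine h.continuousOn_cut' (C := t) continuousOn_snd (by fun_prop) ?_ ?_ ?_
      · exact fun p hp => hs.le.trans (tm_aux hst hp.1).1
      · exact fun p hp => (tm_aux hst hp.1).2
      · exact fun p hp => FLD_mono le_rfl (tm_aux hst hp.1).1 hp.2
    have hm : ∀ σ ∈ Icc (0:ℝ) 1, ∀ w ∈ FLD C.Dp s,
        cut T ℓ (s + σ * (t - s)) w ∈ P x₀ x₀ (t + 2 * ℓ) := fun σ hσ w hw =>
      P_mono (by linarith [(tm_aux hst hσ).2]) (h.cut_mem (hs.le.trans (tm_aux hst hσ).1)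
        (FLD_mono le_rfl (tm_aux hst hσ).1 hw))
    refine hp_of_cont (isCompact_ovr C.closed_p hs.le) hc ?_ ?_ ?_ ?_
    · intro σ hσ w hw
      rw [mem_cub, dec1_enc, dec2_enc]
      exact ⟨hm σ hσ w hw, C.φ_mem _ hw.2⟩
    · intro σ hσ w hw
      rw [mem_bdc, mem_cub, dec1_enc, dec2_enc]
      exact ⟨⟨hm σ hσ w ⟨hw.1, hw.2.1⟩, C.φ_mem _ hw.2.1⟩, (C.bdry _ hw.2.1).1 hw.2.2⟩
    · intro w hw
      show enc n (cut T ℓ (s + 0 * (t - s)) w) _ = _
      rw [zero_mul, add_zero]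
    · intro w hw
      show enc n (cut T ℓ (s + 1 * (t - s)) w) _ = _
      rw [one_mul, add_sub_cancel]
  g_nat s t hs hst := by
    have hc : ContinuousOn (fun p : ℝ × Cu (ℝ →ᵇ M) n => back T ℓ (s + p.1 * (t - s))
        (C.ψ (dec2 n p.2), dec1 n p.2)) (Icc (0:ℝ) 1 ×ˢ cub n (P x₀ x₀ s)) := by
      refine h.continuousOn_back' (C := t) ?_ ((dec1_cont n).comp_continuousOn continuousOn_snd)
        (by fun_prop) ?_ ?_ ?_ ?_
      · exact C.ψ_cont.comp ((dec2_cont n).comp_continuousOn continuousOn_snd)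
          fun p hp => ((mem_cub n).1 hp.2).2
      · exact fun p hp => hs.le.trans (tm_aux hst hp.1).1
      · exact fun p hp => (tm_aux hst hp.1).2
      · exact fun p hp => C.ψ_mem _ ((mem_cub n).1 hp.2).2
      · exact fun p hp => P_mono (tm_aux hst hp.1).1 ((mem_cub n).1 hp.2).1
    have hm : ∀ σ ∈ Icc (0:ℝ) 1, ∀ z ∈ cub n (P x₀ x₀ s),
        back T ℓ (s + σ * (t - s)) (C.ψ (dec2 n z), dec1 n z) ∈
          P (C.ψ (dec2 n z)) (C.ψ (dec2 n z)) (t + 2 * ℓ) := fun σ hσ z hz =>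
      P_mono (by linarith [(tm_aux hst hσ).2]) (h.back_mem (p := (C.ψ (dec2 n z), dec1 n z))
        (hs.le.trans (tm_aux hst hσ).1) (C.ψ_mem _ ((mem_cub n).1 hz).2)
        (P_mono (tm_aux hst hσ).1 ((mem_cub n).1 hz).1))
    refine hp_of_cont (isCompact_cub n (isCompact_P _ _ _)) hc ?_ ?_ ?_ ?_
    · intro σ hσ z hz
      refine ⟨P_subset_FL (hm σ hσ z hz), ?_⟩
      show back T ℓ (s + σ * (t - s)) (C.ψ (dec2 n z), dec1 n z) 0 ∈ C.Dp
      rw [eq_left (hm σ hσ z hz) le_rfl]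
      exact C.ψ_mem _ ((mem_cub n).1 hz).2
    · intro σ hσ z hz
      obtain ⟨h1, h2⟩ := (mem_bdc n).1 hz
      obtain ⟨h3, h4⟩ := (mem_cub n).1 h1
      refine ⟨P_subset_FL (hm σ hσ z h1), ?_⟩
      show back T ℓ (s + σ * (t - s)) (C.ψ (dec2 n z), dec1 n z) 0 ∈ C.Dp ∩ C.Dm
      rw [eq_left (hm σ hσ z h1) le_rfl]
      refine ⟨C.ψ_mem _ h4, ?_⟩
      rw [C.bdry _ (C.ψ_mem _ h4), C.φψ _ h4]
      exact h2
    · intro z hz
      show back T ℓ (s + 0 * (t - s)) _ = _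
      rw [zero_mul, add_zero]
    · intro z hz
      show back T ℓ (s + 1 * (t - s)) _ = _
      rw [one_mul, add_sub_cancel]
  gf t ht := by
    have hn := h.nonneg
    have hm : ∀ σ ∈ Icc (0:ℝ) 1, ∀ w ∈ FLD C.Dp t, htA T ℓ t (σ, w) ∈ P (w 0) (w 0) (t + 2 * ℓ + 2 * ℓ) :=
      fun σ hσ w hw => P_mono (by linarith) (h.htA_mem ht.le hσ.1 hw)
    refine hp_of_cont (isCompact_ovr C.closed_p ht.le) (F := htA T ℓ t) (h.continuousOn_htA ht.le)
      ?_ ?_ ?_ ?_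
    · intro σ hσ w hw
      refine ⟨P_subset_FL (hm σ hσ w hw), ?_⟩
      show htA T ℓ t (σ, w) 0 ∈ C.Dp
      rw [eq_left (hm σ hσ w hw) le_rfl]
      exact hw.2
    · intro σ hσ w hw
      have hw' : w ∈ FLD C.Dp t := ⟨hw.1, hw.2.1⟩
      refine ⟨P_subset_FL (hm σ hσ w hw'), ?_⟩
      show htA T ℓ t (σ, w) 0 ∈ C.Dp ∩ C.Dm
      rw [eq_left (hm σ hσ w hw') le_rfl]
      exact hw.2
    · exact fun w hw => h.htA_zero ht.le hw
    · intro w hw
      rw [h.htA_one ht.le hw]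
      show _ = back T ℓ (t + 2 * ℓ) (C.ψ (dec2 n (enc n (cut T ℓ t w) (C.φ (w 0)))),
        dec1 n (enc n (cut T ℓ t w) (C.φ (w 0))))
      rw [dec1_enc, dec2_enc, C.ψφ (w 0) hw.2]
  fg t ht := by
    have hn := h.nonneg
    have hc : ContinuousOn (fun p : ℝ × Cu (ℝ →ᵇ M) n => enc n
        (htB T ℓ t (p.1, (C.ψ (dec2 n p.2), dec1 n p.2))) (dec2 n p.2))
        (Icc (0:ℝ) 1 ×ˢ cub n (P x₀ x₀ t)) := by
      have hd2 : ContinuousOn (fun p : ℝ × Cu (ℝ →ᵇ M) n => dec2 n p.2)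
          (Icc (0:ℝ) 1 ×ˢ cub n (P x₀ x₀ t)) := (dec2_cont n).comp_continuousOn continuousOn_snd
      have hd1 : ContinuousOn (fun p : ℝ × Cu (ℝ →ᵇ M) n => dec1 n p.2)
          (Icc (0:ℝ) 1 ×ˢ cub n (P x₀ x₀ t)) := (dec1_cont n).comp_continuousOn continuousOn_snd
      refine enc_cont n ?_ hd2
      refine (h.continuousOn_htB ht.le).comp (continuousOn_fst.prodMk ((C.ψ_cont.comp hd2
        fun p hp => ((mem_cub n).1 hp.2).2).prodMk hd1)) fun p hp => ?_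
      exact ⟨hp.1, C.ψ_mem _ ((mem_cub n).1 hp.2).2, ((mem_cub n).1 hp.2).1⟩
    have hm : ∀ σ ∈ Icc (0:ℝ) 1, ∀ z ∈ cub n (P x₀ x₀ t),
        htB T ℓ t (σ, (C.ψ (dec2 n z), dec1 n z)) ∈ P x₀ x₀ (t + 2 * ℓ + 2 * ℓ) := fun σ hσ z hz =>
      P_mono (by linarith) (h.htB_mem ht.le hσ.1 (C.ψ_mem _ ((mem_cub n).1 hz).2) ((mem_cub n).1 hz).1)
    refine hp_of_cont (isCompact_cub n (isCompact_P _ _ _)) hc ?_ ?_ ?_ ?_
    · intro σ hσ z hz
      rw [mem_cub, dec1_enc, dec2_enc]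
      exact ⟨hm σ hσ z hz, ((mem_cub n).1 hz).2⟩
    · intro σ hσ z hz
      obtain ⟨h1, h2⟩ := (mem_bdc n).1 hz
      rw [mem_bdc, mem_cub, dec1_enc, dec2_enc]
      exact ⟨⟨hm σ hσ z h1, ((mem_cub n).1 h1).2⟩, h2⟩
    · intro z hz
      obtain ⟨h3, h4⟩ := (mem_cub n).1 hz
      show enc n (htB T ℓ t (0, (C.ψ (dec2 n z), dec1 n z))) (dec2 n z) = z
      rw [h.htB_zero ht.le (C.ψ_mem _ h4) h3, enc_dec]
    · intro z hz
      obtain ⟨h3, h4⟩ := (mem_cub n).1 hz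
      show enc n (htB T ℓ t (1, (C.ψ (dec2 n z), dec1 n z))) (dec2 n z) =
        enc n (cut T ℓ (t + 2 * ℓ) (back T ℓ t (C.ψ (dec2 n z), dec1 n z)))
          (C.φ (back T ℓ t (C.ψ (dec2 n z), dec1 n z) 0))
      rw [h.htB_one ht.le (C.ψ_mem _ h4) h3, h.back_zero (p := (C.ψ (dec2 n z), dec1 n z)) ht.le
        (C.ψ_mem _ h4) h3, C.φψ _ h4]

end sp

/-! ### The Thom isomorphism -/

section W3

open Vale.Agent.P216.AS Vale.Agent.P216.H901
open Vale.Agent.P216.H83 (ovr_sub ovr_mono ovr_inter ovr_union ovr_compact lesA lesB lesD lesA_nat lesB_nat lesD_nat les_ex1 les_ex2 les_ex3)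
open Vale.Agent.P216.H799 (excE excE_nat isoSus cub_low)

variable {k : Type} [Field k]

variable {E E' M : Type} [MetricSpace E] [MetricSpace E'] [MetricSpace M] {ev : E → M}
  {X : ℝ → Set E} {Om : ℝ → Set E'} {c : ℝ}

/-- `H901.Triv` without the trivialisation over `D₋`. -/
structure HTriv {E E' M : Type} [MetricSpace E] [MetricSpace E'] [MetricSpace M] (n : ℕ)
    (ev : E → M) (X : ℝ → Set E) (Om : ℝ → Set E') (c : ℝ) where
  c0 : 0 ≤ c
  Dp : Set M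
  Dm : Set M
  closed_p : IsClosed Dp
  closed_m : IsClosed Dm
  union : Dp ∪ Dm = univ
  ev_cont : Continuous ev
  X_comp : ∀ t, 0 < t → IsCompact (X t)
  X_mono : ∀ s t, 0 < s → s ≤ t → X s ⊆ X t
  Om_comp : ∀ t, 0 < t → IsCompact (Om t)
  Om_mono : ∀ s t, 0 < s → s ≤ t → Om s ⊆ Om t
  tp : SpIntl (ovr ev X Dp) (ovr ev X (Dp ∩ Dm)) (fun t => cub n (Om t)) (fun t => bdc n (Om t)) c

variable {n : ℕ} (T : HTriv n ev X Om c)

/-- Strong excision. -/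
noncomputable def isoExc (k : Type) [Field k] (q : ℕ) :
    PMIso (PMr k X (ovr ev X T.Dm) T.X_mono (mono_ovr T.X_mono _) q)
      (PMr k (ovr ev X T.Dp) (ovr ev X (T.Dp ∩ T.Dm)) (mono_ovr T.X_mono _)
        (mono_ovr T.X_mono _) q) where
  e t ht := excE k T.ev_cont T.closed_p T.closed_m T.union (T.X_comp t ht) q
  nat s t hs ht h x := excE_nat T.ev_cont T.closed_p T.closed_m T.union (T.X_comp s hs)
    (T.X_comp t ht) (T.X_mono s t hs h) q x

/-- The interleaving of the relative groups with `H^*(Om × (I^n, ∂I^n))`. -/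
noncomputable def iP0 (k : Type) [Field k] (q : ℕ) :
    Intl (PMr k X (ovr ev X T.Dm) T.X_mono (mono_ovr T.X_mono _) q)
      (PMr k (fun t => cub n (Om t)) (fun t => bdc n (Om t))
        (mono_cub n T.Om_mono) (mono_bdc n T.Om_mono) q) c :=
  PMIso.intl (isoExc T k q) (isoRefl _) T.c0
    (T.tp.intl k (mono_ovr T.X_mono _) (mono_ovr T.X_mono _) (mono_cub n T.Om_mono)
      (mono_bdc n T.Om_mono) (fun t => ovr_mono subset_rfl inter_subset_left)
      (fun t => bdc_subset _ _) T.c0 q)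

/-- **The Thom isomorphism with bounded shift**: `H^(q+n)(X, X|Dm) ~ H^q(Om)`. -/
noncomputable def iP (k : Type) [Field k] (q : ℕ) :
    Intl (PMr k X (ovr ev X T.Dm) T.X_mono (mono_ovr T.X_mono _) (q + n))
      (PMa k Om T.Om_mono q) c :=
  PMIso.intl (isoRefl _) (isoEmpty k Om T.Om_mono q).symm T.c0
    (PMIso.intl (isoRefl _) (isoSus k T.Om_mono n q).symm T.c0 (iP0 T k (q + n)))

/-- `H^q(X, X|Dm)` dies for `q < n`. -/
theorem iP_low (k : Type) [Field k] {q : ℕ} (hq : q < n) :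
    (PMr k X (ovr ev X T.Dm) T.X_mono (mono_ovr T.X_mono _) q).Eph (2 * c) := by
  have h := (iP0 T k q).eph T.c0 le_rfl
    (fun s t hs hst _ x => cub_low k (Om s) n q hq _)
  rwa [zero_add] at h

end W3

end Vale.Agent.P216.H337T
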